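import Vale.Agent.P207Z.Erg.Den
import Vale.Agent.P207Z.Calc.Flat

/-!
# P207: measurable fields of functionals which vanish to a given order (block CH-A, first part)
-/

set_option linter.all false

open Set Filter Topology Metric MeasureTheory Asymptotics

noncomputable section

namespace Vale.Agent.P207Z.MJx

variable {X V W : Type} [NormedAddCommGroup V] [NormedAddCommGroup W] [NormedSpace ℝ W]

/-- a bounded function which vanishes to the order `c` -/
theorem bd_of_bigO {f : V → ℝ} {c : ℕ} {ρ M : ℝ} (h : f =O[𝓝 0] fun z : V => ‖z‖ ^ c)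
    (hM : ∀ z ∈ ball (0 : V) ρ, |f z| ≤ M) : ∃ C : ℝ, ∀ z ∈ ball (0 : V) ρ, |f z| ≤ C * ‖z‖ ^ c := by
  obtain ⟨C, hC0, hC⟩ := h.exists_nonneg
  obtain ⟨δ, hδ, h1⟩ := Metric.eventually_nhds_iff_ball.1 hC.bound
  refine ⟨C + |M| / δ ^ c, fun z hz => ?_⟩
  have h3 : 0 ≤ |M| / δ ^ c := by positivity
  have h4 : 0 ≤ ‖z‖ ^ c := by positivity
  by_cases h2 : z ∈ ball (0 : V) δ
  · have h5 := h1 z h2
    rw [Real.norm_eq_abs, Real.norm_of_nonneg h4] at h5
    nlinarith [mul_nonneg h3 h4]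
  · rw [mem_ball_zero_iff, not_lt] at h2
    have h5 : |M| ≤ |M| / δ ^ c * ‖z‖ ^ c := by
      rw [div_mul_eq_mul_div, le_div_iff₀ (by positivity)]
      exact mul_le_mul_of_nonneg_left (pow_le_pow_left₀ hδ.le h2 c) (abs_nonneg _)
    nlinarith [hM z hz, le_abs_self M, mul_nonneg hC0 h4]

theorem bigO_of_bd {f : V → ℝ} {c : ℕ} {ρ C : ℝ} (hρ : 0 < ρ)
    (h : ∀ z ∈ ball (0 : V) ρ, |f z| ≤ C * ‖z‖ ^ c) : f =O[𝓝 0] fun z : V => ‖z‖ ^ c := by
  refine IsBigO.of_bound C ?_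
  filter_upwards [ball_mem_nhds (0 : V) hρ] with z hz
  rw [Real.norm_eq_abs, Real.norm_of_nonneg (by positivity)]
  exact h z hz

theorem pow_bigO {c c' : ℕ} (hc : c ≤ c') :
    (fun z : V => ‖z‖ ^ c') =O[𝓝 0] fun z : V => ‖z‖ ^ c := by
  refine bigO_of_bd (C := 1) one_pos fun z hz => ?_
  rw [abs_of_nonneg (by positivity), one_mul]
  exact pow_le_pow_of_le_one (norm_nonneg _) (mem_ball_zero_iff.1 hz).le hc

/-- the seminorm `|g a| / t` -/
def semi (g : W →L[ℝ] ℝ) (t : ℝ) : Seminorm ℝ W :=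
  (normSeminorm ℝ ℝ).comp (t⁻¹ • g).toLinearMap

theorem semi_apply (g : W →L[ℝ] ℝ) {t : ℝ} (ht : 0 < t) (a : W) : semi g t a = |g a| / t := by
  change ‖t⁻¹ * g a‖ = _
  rw [Real.norm_eq_abs, abs_mul, abs_of_pos (inv_pos.2 ht), div_eq_inv_mul]

/-- the vectors on which the functionals `g x z` vanish to the order `c` in `z` -/
theorem exists_fld [MeasurableSpace X] [NormedSpace ℝ V] [FiniteDimensional ℝ V]
    [FiniteDimensional ℝ W] (μ : Measure X) (g : X → V → W →L[ℝ] ℝ) {ρ : ℝ} (hρ : 0 < ρ)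
    (hm : ∀ z ∈ ball (0 : V) ρ, ∀ a, Measurable fun x => g x z a)
    (hc : ∀ x a, ContinuousOn (fun z => g x z a) (ball 0 ρ)) (c : ℕ) :
    ∃ (H : X → Submodule ℝ W) (C : X → ℝ), MET.MSub μ H ∧ Measurable C ∧
      (∀ x a, (∃ M, ∀ z ∈ ball (0 : V) ρ, |g x z a| ≤ M * ‖z‖ ^ c) → a ∈ H x) ∧
      ∀ x, ∀ a ∈ H x, ∀ z ∈ ball (0 : V) ρ, |g x z a| ≤ C x * ‖a‖ * ‖z‖ ^ c := by
  classical
  let u : ℕ → V := fun i => if TopologicalSpace.denseSeq V i ∈ ball (0 : V) ρ then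
    TopologicalSpace.denseSeq V i else 0
  have hu : ∀ i, u i ∈ ball (0 : V) ρ := fun i => by
    dsimp only [u]
    split_ifs with h
    exacts [h, mem_ball_self hρ]
  let t : ℕ → ℝ := fun j => ‖u (Nat.unpair j).1‖ ^ c + rad (Nat.unpair j).2
  have ht : ∀ j, 0 < t j := fun j => add_pos_of_nonneg_of_pos (by positivity) (rad_pos _)
  let p : ℕ → X → Seminorm ℝ W := fun j x => semi (g x (u (Nat.unpair j).1)) (t j)
  have hp : ∀ j l, Measurable fun x => p j x l := fun j l => by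
    simp only [p, semi_apply _ (ht j)]
    exact (hm _ (hu _) l).abs.div_const _
  obtain ⟨q, K, C, -, hC, -, -, -, h1⟩ := MET.msub_bdd hp
  refine ⟨fun x => MET.bddSub fun j => p j x, C, MET.msub_bddSub hp, hC, ?_, fun x a ha z hz => ?_⟩
  · rintro x a ⟨M, hM⟩
    refine ⟨|M|, fun j => ?_⟩
    simp only [p, semi_apply _ (ht j)]
    rw [div_le_iff₀ (ht j)]
    refine (hM _ (hu _)).trans (mul_le_mul (le_abs_self M) ?_ (by positivity) (abs_nonneg M))
    exact le_add_of_nonneg_right (rad_pos _).le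
  · obtain ⟨h0, h2⟩ := h1 x
    have h3 : ∀ i, |g x (u i) a| ≤ C x * ‖a‖ * ‖u i‖ ^ c := fun i => by
      refine le_of_forall_pos_le_add fun ε hε => ?_
      obtain ⟨m, hm⟩ := exists_rad_le (div_pos hε (show 0 < C x * ‖a‖ + 1 by positivity))
      have h4 := h2 a ha (Nat.pair i m)
      simp only [p, semi_apply _ (ht _)] at h4
      rw [div_le_iff₀ (ht _)] at h4
      simp only [t, Nat.unpair_pair] at h4
      have h5 := hm m le_rfl
      rw [le_div_iff₀ (by positivity)] at h5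
      nlinarith [rad_pos m]
    have h4 : z ∈ closure (ball (0 : V) ρ ∩ range (TopologicalSpace.denseSeq V)) :=
      (TopologicalSpace.denseRange_denseSeq V).open_subset_closure_inter isOpen_ball hz
    refine ContinuousWithinAt.closure_le h4 (f := fun z => |g x z a|)
      (g := fun z => C x * ‖a‖ * ‖z‖ ^ c) ((hc x a z hz).abs.mono inter_subset_left)
      (Continuous.continuousWithinAt (by fun_prop)) ?_
    rintro _ ⟨hy, i, rfl⟩
    have h5 := h3 i
    simp only [u, if_pos hy] at h5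
    exact h5

theorem rank_le [FiniteDimensional ℝ W] {H H' : Submodule ℝ W} (Φ Ψ : W →L[ℝ] W)
    (h : ∀ j ∈ H, Φ j ∈ H') (h' : ∀ j ∈ H, Ψ (Φ j) = j) :
    Module.finrank ℝ H ≤ Module.finrank ℝ H' := by
  refine LinearMap.finrank_le_finrank_of_injective (f := Φ.toLinearMap.restrict h) fun a b e => ?_
  have h1 : Φ a = Φ b := congrArg Subtype.val e
  exact Subtype.ext ((h' _ a.2).symm.trans ((congrArg Ψ h1).trans (h' _ b.2)))

end Vale.Agent.P207Z.MJx
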